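import Vale.Agent.P078.Paving0

/-! Cartan subalgebras of finite von Neumann algebras: definitions. -/

namespace Vale.Agent.P078.C

variable {H : Type*} [NormedAddCommGroup H] [InnerProductSpace ℂ H] [CompleteSpace H]

/-- the functional `x ↦ ∑ ⟪ξ n, x (ξ n)⟫` -/
noncomputable def vtr (ξ : ℕ → H) (x : H →L[ℂ] H) : ℂ := ∑' n, inner ℂ (ξ n) (x (ξ n))

/-- `vtr ξ` is a faithful normal tracial state on `M` -/
structure IsTrace (M : VonNeumannAlgebra H) (ξ : ℕ → H) : Prop where
  summable : Summable fun n => ‖ξ n‖ ^ 2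
  norm_one : ∑' n, ‖ξ n‖ ^ 2 = 1
  tracial : ∀ x ∈ M, ∀ y ∈ M, vtr ξ (x * y) = vtr ξ (y * x)
  faithful : ∀ x ∈ M, (∀ n, x (ξ n) = 0) → x = 0

/-- `u` is a unitary of `M` which normalizes `A`, that is `u A u* = A` -/
def Normalizes (M A : VonNeumannAlgebra H) (u : H →L[ℂ] H) : Prop :=
  u ∈ M ∧ star u * u = 1 ∧ u * star u = 1 ∧ ∀ a ∈ A, u * a * star u ∈ A ∧ star u * a * u ∈ A

/-- `A` is a Cartan subalgebra of `M`: a maximal abelian subalgebra such that the unitaries of
`M` normalizing `A` generate `M` as a von Neumann algebra (every operator commuting with them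
commutes with `M`) -/
def IsCartanMASA (A M : VonNeumannAlgebra H) : Prop :=
  SO.IsMASA A M ∧ ∀ T : H →L[ℂ] H, (∀ u, Normalizes M A u → T * u = u * T) →
    ∀ m ∈ M, T * m = m * T

end Vale.Agent.P078.C
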